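import Vale.Agent.P105Z.Main

open MeasureTheory Filter

namespace Vale.Agent.Results.P105.Classification

open Vale.Agent.P105 Vale.Agent.P105.Salem Vale.Agent.P105Z

/-- **Arithmetic classification of the singular Bernoulli convolutions.**
(1) The sets `A(n, K) = unitSet n K` are finite sets of algebraic units of `(1 / 2, 1)`.
(2) For every `lam ∈ [1 / 2, 1)`: the Bernoulli convolution is singular if and only if for every
`K` there are `n` and `η ∈ A(n, K)` with `lam ≤ η ≤ lam + lam ^ n`; it is absolutely continuous if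
and only if this fails; in the singular case such `η` exist for all large `n`; and the two-sided
approximation `|η - lam| ≤ lam ^ n` gives the same set of parameters.
(3) For `lam ∈ (0, 1 / 2)` it is singular.
(4) If `1 / lam` is a Salem number of degree four, it is singular.
(5) There is `lam ∈ (1 / 2, 1)` such that `1 / lam` is not a Pisot number and it is singular. -/
theorem result :
    (∀ n K : ℕ, (unitSet n K).Finite ∧
      ∀ η ∈ unitSet n K, 1 / 2 < η ∧ η < 1 ∧ IsIntegral ℤ η ∧ IsIntegral ℤ η⁻¹) ∧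
    (∀ lam : ℝ, 1 / 2 ≤ lam → lam < 1 →
      (bernConv lam ⟂ₘ volume ↔
        ∀ K : ℕ, ∃ n : ℕ, ∃ η ∈ unitSet n K, lam ≤ η ∧ η ≤ lam + lam ^ n) ∧
      (bernConv lam ≪ volume ↔
        ∃ K : ℕ, ∀ n : ℕ, ∀ η ∈ unitSet n K, ¬ (lam ≤ η ∧ η ≤ lam + lam ^ n)) ∧
      (bernConv lam ⟂ₘ volume ↔
        ∀ K : ℕ, ∀ᶠ n : ℕ in atTop, ∃ η ∈ unitSet n K, lam ≤ η ∧ η ≤ lam + lam ^ n) ∧
      (bernConv lam ⟂ₘ volume ↔
        ∀ K : ℕ, ∃ n : ℕ, ∃ η ∈ unitSet n K, |η - lam| ≤ lam ^ n)) ∧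
    (∀ lam : ℝ, 0 < lam → lam < 1 / 2 → bernConv lam ⟂ₘ volume) ∧
    (∀ lam : ℝ, 0 < lam → IsSalem lam⁻¹ → (minpoly ℚ lam⁻¹).natDegree = 4 →
      bernConv lam ⟂ₘ volume) ∧
    ∃ lam : ℝ, 1 / 2 < lam ∧ lam < 1 ∧ lam ^ 4 - lam ^ 3 - lam ^ 2 - lam + 1 = 0 ∧
      IsSalem lam⁻¹ ∧ ¬ IsPisot lam⁻¹ ∧ bernConv lam ⟂ₘ volume := by
  refine ⟨fun n K => ⟨unitSet_finite n K, fun η hη => ?_⟩, fun lam h0 h1 => classification h0 h1,
    fun lam h0 h1 => singular_of_lt_half h0 h1, main.1, main.2⟩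
  obtain ⟨h0, h1, ⟨D, hD, hs⟩, -⟩ := hη
  exact ⟨half_lt_of_root h0 hD hs, h1, isIntegral_of_root hD hs, isIntegral_inv_of_root h0 hD hs⟩

end Vale.Agent.Results.P105.Classification
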